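import Mathlib.Data.Real.Archimedean
import Mathlib.Data.Fintype.Lattice
import Mathlib.Data.Fintype.Pigeonhole
import Mathlib.Algebra.BigOperators.Ring.Finset
import Mathlib.Algebra.Order.BigOperators.Group.Finset
import Mathlib.Data.Int.Interval
import Mathlib.Data.Fintype.Pi
import Mathlib.Data.Fintype.Prod
import Mathlib.Order.Interval.Finset.Basic
import Mathlib.Data.Set.Finite.Basic
import Mathlib.Tactic.Linarith
import Mathlib.Tactic.Positivity

/-!
# P277, T6: the stages at which the spaces are singular along a flipped surface are finitely many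
-/

open Set

namespace Vale.Agent.P277.H615

/-- At the stages `j ∈ B` there are multiplicities `n j l` of the places `l`, and integers `lam j e`
which are bounded above, with `∑ e, ρ e * lam j e = ∑ l, n j l * val l (j + 1)`; then `B` is finite. -/
theorem stageD {r K : ℕ} (ρ : Fin K → ℝ) (m : Fin K → ℕ) (val : Fin r → ℕ → ℝ) (B : Set ℕ)
    (n : ℕ → Fin r → ℕ) (lam : ℕ → Fin K → ℤ) (hρ : ∀ e, 0 < ρ e)
    (hmono : ∀ l j, val l j ≤ val l (j + 1)) (h1 : ∀ j ∈ B, 1 ≤ ∑ l, n j l)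
    (h2 : ∀ j ∈ B, ∀ l, 0 < n j l → -1 ≤ val l 0 ∧ val l j < val l (j + 1))
    (h3 : ∀ j ∈ B, ∑ e, ρ e * lam j e = ∑ l, (n j l : ℝ) * val l (j + 1))
    (h4 : ∀ j ∈ B, ∀ e, lam j e ≤ 2 * m e)
    (h5 : ∀ j ∈ B, (∑ l, (n j l : ℝ)) + ∑ e, ρ e * lam j e ≤ 2) : B.Finite := by
  classical
  have hm : ∀ l, Monotone (val l) := fun l => monotone_nat_of_le_succ (hmono l)
  -- a uniform `ε`
  have hε : ∀ l, ∃ ε : ℝ, 0 < ε ∧ ∀ j ∈ B, 0 < n j l → -1 + ε ≤ val l (j + 1) := by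
    intro l
    by_cases hex : ∃ j ∈ B, 0 < n j l
    · have hmem := Nat.find_spec hex
      set j₀ := Nat.find hex with hj₀
      obtain ⟨g1, g2⟩ := h2 j₀ hmem.1 l hmem.2
      have g3 : val l 0 ≤ val l j₀ := hm l (Nat.zero_le _)
      refine ⟨val l (j₀ + 1) + 1, by linarith, fun j hj hn => ?_⟩
      have g4 : j₀ ≤ j := Nat.find_min' hex ⟨hj, hn⟩
      have g5 := hm l (Nat.succ_le_succ g4)
      have g6 : val l (j₀ + 1) ≤ val l (j + 1) := g5
      linarith
    · push Not at hex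
      exact ⟨1, one_pos, fun j hj hn => absurd hn (Nat.not_lt.2 (hex j hj))⟩
  choose ε hε0 hεv using hε
  obtain ⟨δ, hδ0, hδ⟩ : ∃ δ : ℝ, 0 < δ ∧ ∀ l, δ ≤ ε l := by
    rcases isEmpty_or_nonempty (Fin r) with h | h
    · exact ⟨1, one_pos, fun l => (h.false l).elim⟩
    · obtain ⟨l₀, hl₀⟩ := Finite.exists_min ε
      exact ⟨ε l₀, hε0 l₀, hl₀⟩
  have hlow : ∀ j ∈ B, (-1 + δ) * ∑ l, (n j l : ℝ) ≤ ∑ l, (n j l : ℝ) * val l (j + 1) := by
    intro j hj
    rw [Finset.mul_sum]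
    refine Finset.sum_le_sum fun l _ => ?_
    rcases Nat.eq_zero_or_pos (n j l) with h0 | h0
    · simp [h0]
    · have g1 := hεv l j hj h0
      have g2 := hδ l
      have g3 : (0 : ℝ) ≤ n j l := Nat.cast_nonneg _
      nlinarith
  have hsum : ∀ j ∈ B, ∑ l, (n j l : ℝ) ≤ 2 / δ := by
    intro j hj
    have g1 := h5 j hj
    have g2 := hlow j hj
    rw [h3 j hj] at g1
    rw [le_div_iff₀ hδ0]
    nlinarith
  -- the vectors `n`
  have hn : ∀ j ∈ B, ∀ l, n j l ≤ ⌊2 / δ⌋₊ := by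
    intro j hj l
    refine Nat.le_floor (le_trans ?_ (hsum j hj))
    exact Finset.single_le_sum (f := fun l => (n j l : ℝ)) (fun l _ => Nat.cast_nonneg _)
      (Finset.mem_univ l)
  -- the vectors `lam`
  have hlamlow : ∀ e, ∃ c : ℝ, ∀ j ∈ B, c ≤ lam j e := by
    intro e
    refine ⟨(-(2 / δ) - ∑ e', ρ e' * (2 * m e')) / ρ e, fun j hj => ?_⟩
    rw [div_le_iff₀ (hρ e)]
    have g1 : -(2 / δ) ≤ ∑ e, ρ e * (lam j e : ℝ) := by
      rw [h3 j hj]
      have g2 := hlow j hj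
      have g3 := hsum j hj
      have g4 : (0 : ℝ) ≤ ∑ l, (n j l : ℝ) := Finset.sum_nonneg fun l _ => Nat.cast_nonneg _
      nlinarith
    have g2 : ∑ e', ρ e' * (lam j e' : ℝ) ≤ ρ e * lam j e + ∑ e', ρ e' * (2 * m e') := by
      rw [← Finset.add_sum_erase _ _ (Finset.mem_univ e)]
      have g5 : ∑ e' ∈ Finset.univ.erase e, ρ e' * (lam j e' : ℝ) ≤
          ∑ e' ∈ Finset.univ.erase e, ρ e' * (2 * m e') := by
        refine Finset.sum_le_sum fun e' _ => mul_le_mul_of_nonneg_left ?_ (hρ e').le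
        exact_mod_cast h4 j hj e'
      have g6 : ∑ e' ∈ Finset.univ.erase e, ρ e' * (2 * (m e' : ℝ)) ≤ ∑ e', ρ e' * (2 * m e') :=
        Finset.sum_le_sum_of_subset_of_nonneg (Finset.erase_subset _ _) fun e' _ _ =>
          mul_nonneg (hρ e').le (by positivity)
      linarith
    linarith
  choose c hc using hlamlow
  -- finitely many values
  by_contra hB
  have hB' : B.Infinite := hB
  have hinf : Infinite B := hB'.to_subtype
  let F : B → (Fin r → Fin (⌊2 / δ⌋₊ + 1)) × (∀ e, Set.Icc ⌈c e⌉ (2 * (m e : ℤ))) := fun j =>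
    (fun l => ⟨n j l, Nat.lt_succ_of_le (hn j j.2 l)⟩,
      fun e => ⟨lam j e, Int.ceil_le.2 (hc e j j.2), h4 j j.2 e⟩)
  obtain ⟨j, j', hne, hF⟩ := Finite.exists_ne_map_eq_of_infinite F
  wlog hlt : (j : ℕ) < j' generalizing j j'
  · exact this j' j (Ne.symm hne) hF.symm (lt_of_le_of_ne (not_lt.1 hlt) fun h =>
      hne (Subtype.ext h.symm))
  have e1 : ∀ l, n j l = n j' l := fun l => by
    have := congrFun (congrArg Prod.fst hF) l
    exact congrArg Fin.val this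
  have e2 : ∀ e, lam j e = lam j' e := fun e => by
    have := congrFun (congrArg Prod.snd hF) e
    exact congrArg Subtype.val this
  have e3 : ∑ l, (n j l : ℝ) * val l (j + 1) = ∑ l, (n j' l : ℝ) * val l (j' + 1) := by
    rw [← h3 j j.2, ← h3 j' j'.2]
    exact Finset.sum_congr rfl fun e _ => by rw [e2 e]
  obtain ⟨l₀, hl₀⟩ : ∃ l, 0 < n j' l := by
    by_contra hcon
    push Not at hcon
    have := h1 j' j'.2
    have h0 : ∑ l, n j' l = 0 := Finset.sum_eq_zero fun l _ => Nat.le_zero.1 (hcon l)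
    omega
  have e4 : ∑ l, (n j l : ℝ) * val l (j + 1) < ∑ l, (n j' l : ℝ) * val l (j' + 1) := by
    refine Finset.sum_lt_sum (fun l _ => ?_) ⟨l₀, Finset.mem_univ _, ?_⟩
    · rw [e1 l]
      exact mul_le_mul_of_nonneg_left (hm l (by omega)) (Nat.cast_nonneg _)
    · rw [e1 l₀]
      have g1 := (h2 j' j'.2 l₀ hl₀).2
      have g2 : val l₀ (j + 1) ≤ val l₀ j' := hm l₀ hlt
      have g3 : (0 : ℝ) < n j' l₀ := by exact_mod_cast hl₀
      exact mul_lt_mul_of_pos_left (lt_of_le_of_lt g2 g1) g3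
  linarith

end Vale.Agent.P277.H615
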